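import Vale.Agent.P110.Bdl.B1

/-! # P110: large cells of sign patterns and Hamming counting -/

namespace Vale.Agent.P110.H628

open Finset Vale.Agent.P110.RT

/-- A cell containing all but an exponentially small proportion of the sign patterns: the values of
the functionals `v j` on any two patterns of the cell differ by little. -/
theorem big_cell {ι J : Type*} [Fintype ι] [DecidableEq ι] [Fintype J] [DecidableEq J]
    (v : J → ι → ℝ) (hv : ∀ j i, |v j i| ≤ 1) (hι : 1 ≤ Fintype.card ι)
    (hJ : 1 ≤ Fintype.card J) (K : ℝ) (hK : 2 ≤ K) :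
    ∃ F : Finset (ι → Bool),
      (2 : ℝ) ^ Fintype.card ι / 2 ≤ Real.exp (10 * Fintype.card J / K ^ 2) * F.card ∧
      ∀ e ∈ F, ∀ e' ∈ F, ∀ j,
        |∑ i, (sg (e i) - sg (e' i)) / 2 * v j i| ≤ K * √(Fintype.card ι : ℝ) := by
  classical
  obtain ⟨m, hm⟩ : ∃ m : ℝ, m = (Fintype.card ι : ℝ) := ⟨_, rfl⟩
  obtain ⟨M, hM⟩ : ∃ M : ℝ, M = (Fintype.card J : ℝ) := ⟨_, rfl⟩
  have hm1 : 1 ≤ m := by rw [hm]; exact_mod_cast hι
  have hM1 : 1 ≤ M := by rw [hM]; exact_mod_cast hJ
  have hm0 : 0 < m := by linarith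
  have hM0 : 0 < M := by linarith
  have hK0 : 0 < K := by linarith
  have hsm : 0 < √m := Real.sqrt_pos.2 hm0
  rw [← hm, ← hM]
  have hlam0 : 0 < K * √m := by positivity
  have hlam4 : (K * √m) ^ 4 = K ^ 4 * m ^ 2 := by
    have h1 : √m ^ 4 = (√m ^ 2) ^ 2 := by ring
    rw [mul_pow, h1, Real.sq_sqrt hm0.le]
  generalize hlam : K * √m = lam at hlam0 hlam4 ⊢
  have hsum := sum_round v hv lam hlam0
  rw [← hm, ← hM] at hsum
  set Lr : ℝ := 6 * M / K ^ 4 with hLr
  have hLr0 : 0 < Lr := by positivity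
  have hG := good_card (fun e : ι → Bool =>
    ∑ j, (round ((∑ i, sg (e i) * v j i) / (2 * lam))).natAbs) Lr hLr0
    (hsum.trans (le_of_eq (by rw [hlam4, hLr]; field_simp; ring)))
  set b : (ι → Bool) → J → ℤ := fun e j => round ((∑ i, sg (e i) * v j i) / (2 * lam)) with hb
  set G : Finset (ι → Bool) := univ.filter (fun e =>
    ∑ j, (round ((∑ i, sg (e i) * v j i) / (2 * lam))).natAbs ≤ ⌊Lr⌋₊) with hGd
  have hx0 : 0 < 1 / K ^ 2 := by positivity
  have hx1 : 1 / K ^ 2 ≤ 1 / 2 := by
    rw [div_le_div_iff₀ (by positivity) (by norm_num)]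
    nlinarith
  have hB : ((G.image b).card : ℝ) ≤ Real.exp (10 * M / K ^ 2) := by
    have h1 := card_cells (G.image b) ⌊Lr⌋₊ (fun c hc => by
      rw [Finset.mem_image] at hc
      obtain ⟨e, he, rfl⟩ := hc
      exact (Finset.mem_filter.1 he).2) (1 / K ^ 2) hx0 hx1
    rw [← hM] at h1
    have h2 : Real.exp (-(6 * M / K ^ 2)) ≤ (1 / K ^ 2) ^ ⌊Lr⌋₊ := by
      have h4 : 1 / K ^ 2 = Real.exp (-(2 * Real.log K)) := by
        rw [Real.exp_neg, two_mul, Real.exp_add, Real.exp_log hK0]
        field_simp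
      rw [h4, ← Real.exp_nat_mul, Real.exp_le_exp]
      have h5 : (⌊Lr⌋₊ : ℝ) ≤ Lr := Nat.floor_le hLr0.le
      have h6 : Real.log K ≤ K := (Real.log_le_sub_one_of_pos hK0).trans (by linarith)
      have h7 : 0 ≤ Real.log K := Real.log_nonneg (by linarith)
      have h8 : (⌊Lr⌋₊ : ℝ) * (2 * Real.log K) ≤ Lr * (2 * K) :=
        mul_le_mul h5 (by linarith) (by linarith) hLr0.le
      have h9 : Lr * (2 * K) ≤ 6 * M / K ^ 2 := by
        have h10 : Lr * (2 * K) = 6 * M / K ^ 2 * (2 / K) := by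
          rw [hLr]; field_simp
        rw [h10]
        have h11 : 2 / K ≤ 1 := by rw [div_le_one hK0]; exact hK
        have h12 : 0 ≤ 6 * M / K ^ 2 := by positivity
        nlinarith
      linarith
    have h3 : ((G.image b).card : ℝ) * Real.exp (-(6 * M / K ^ 2)) ≤
        Real.exp (4 * (1 / K ^ 2) * M) :=
      (mul_le_mul_of_nonneg_left h2 (Nat.cast_nonneg _)).trans h1
    calc ((G.image b).card : ℝ)
        = ((G.image b).card : ℝ) * Real.exp (-(6 * M / K ^ 2)) * Real.exp (6 * M / K ^ 2) := by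
          rw [mul_assoc, ← Real.exp_add]; simp
      _ ≤ Real.exp (4 * (1 / K ^ 2) * M) * Real.exp (6 * M / K ^ 2) :=
          mul_le_mul_of_nonneg_right h3 (Real.exp_pos _).le
      _ = Real.exp (10 * M / K ^ 2) := by
          rw [← Real.exp_add]; congr 1; field_simp; ring
  obtain ⟨c, hc⟩ := exists_fiber G b _ _ (show (0 : ℝ) < 2 ^ Fintype.card ι / 2 by positivity)
    (Real.exp_pos _) hB hG
  refine ⟨G.filter (fun e => b e = c), hc, fun e he e' he' j => ?_⟩
  have h1 : ∑ i, (sg (e i) - sg (e' i)) / 2 * v j i =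
      ((∑ i, sg (e i) * v j i) - (∑ i, sg (e' i) * v j i)) / 2 := by
    rw [← Finset.sum_sub_distrib, Finset.sum_div]
    exact Finset.sum_congr rfl fun i _ => by ring
  rw [h1]
  have h2 : b e j = b e' j := by
    rw [Finset.mem_filter] at he he'
    rw [he.2, he'.2]
  have h3 : |(∑ i, sg (e i) * v j i) / (2 * lam) - (∑ i, sg (e' i) * v j i) / (2 * lam)| ≤ 1 := by
    have h4 := abs_sub_round ((∑ i, sg (e i) * v j i) / (2 * lam))
    have h5 := abs_sub_round ((∑ i, sg (e' i) * v j i) / (2 * lam))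
    have h6 : (round ((∑ i, sg (e i) * v j i) / (2 * lam)) : ℝ)
        = round ((∑ i, sg (e' i) * v j i) / (2 * lam)) := by
      exact_mod_cast h2
    rw [h6] at h4
    rw [abs_le] at *
    constructor <;> linarith
  rw [← sub_div, abs_div, abs_of_pos (show 0 < 2 * lam by positivity),
    div_le_one (by positivity)] at h3
  rw [abs_div, abs_of_pos (show (0 : ℝ) < 2 by norm_num)]
  linarith

/-- few patterns are at small Hamming distance from a given one -/
theorem card_ball_le {ι : Type*} [Fintype ι] [DecidableEq ι] (e₀ : ι → Bool) (t s : ℝ)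
    (ht0 : 0 < t) (ht1 : t ≤ 1) (r : ℕ)
    (hs : Real.exp (-s) ≤ t ^ r) :
    ((univ.filter fun e : ι → Bool => (univ.filter fun i => e i ≠ e₀ i).card ≤ r).card : ℝ) ≤
      Real.exp (s + t * Fintype.card ι) := by
  classical
  set F := univ.filter fun e : ι → Bool => (univ.filter fun i => e i ≠ e₀ i).card ≤ r with hF
  have h1 : (F.card : ℝ) * t ^ r ≤ (1 + t) ^ Fintype.card ι := by
    rw [← sum_pow_hamming _ e₀]
    refine le_trans ?_ (Finset.sum_le_sum_of_subset_of_nonneg (Finset.subset_univ F)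
      fun e _ _ => Finset.prod_nonneg fun i _ => by split_ifs <;> positivity)
    rw [← nsmul_eq_mul]
    refine Finset.card_nsmul_le_sum _ _ _ fun e he => ?_
    have h3 : (univ.filter (fun i => e i ≠ e₀ i)).card ≤ r := (Finset.mem_filter.1 he).2
    rw [Finset.prod_ite, Finset.prod_const_one, one_mul, Finset.prod_const]
    exact pow_le_pow_of_le_one ht0.le ht1 h3
  have h2 : (1 + t) ^ Fintype.card ι ≤ Real.exp (t * Fintype.card ι) := by
    calc (1 + t) ^ Fintype.card ι ≤ (Real.exp t) ^ Fintype.card ι := by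
          refine pow_le_pow_left₀ (by positivity) ?_ _
          have := Real.add_one_le_exp t
          linarith
      _ = _ := by rw [← Real.exp_nat_mul]; ring_nf
  have h3 : (F.card : ℝ) * Real.exp (-s) ≤ Real.exp (t * Fintype.card ι) :=
    ((mul_le_mul_of_nonneg_left hs (Nat.cast_nonneg _)).trans h1).trans h2
  calc (F.card : ℝ) = (F.card : ℝ) * Real.exp (-s) * Real.exp s := by
        rw [mul_assoc, ← Real.exp_add]; simp
    _ ≤ Real.exp (t * Fintype.card ι) * Real.exp s :=
        mul_le_mul_of_nonneg_right h3 (Real.exp_pos _).le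
    _ = _ := by rw [← Real.exp_add]; ring_nf

/-- patterns prescribed on a set -/
theorem card_prescribed {ι : Type*} [Fintype ι] [DecidableEq ι] (T : Finset ι) (σ : Bool) :
    (univ.filter fun e : ι → Bool => ∀ i ∈ T, e i = σ).card = 2 ^ (Fintype.card ι - T.card) := by
  classical
  have h1 : (univ.filter fun e : ι → Bool => ∀ i ∈ T, e i = σ) =
      Fintype.piFinset (fun i => if i ∈ T then ({σ} : Finset Bool) else univ) := by
    ext e
    simp only [mem_filter, mem_univ, true_and, Fintype.mem_piFinset]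
    constructor
    · intro h i
      by_cases hi : i ∈ T
      · simp [hi, h i hi]
      · simp [hi]
    · intro h i hi
      have := h i
      simpa [hi] using this
  rw [h1, Fintype.card_piFinset]
  have h2 : ∀ i, (if i ∈ T then ({σ} : Finset Bool) else univ).card = if i ∈ T then 1 else 2 := by
    intro i
    split_ifs <;> simp
  rw [Finset.prod_congr rfl fun i _ => h2 i, Finset.prod_ite, Finset.prod_const_one, one_mul,
    Finset.prod_const]
  congr 1
  have h3 : (univ.filter fun i => i ∉ T) = Tᶜ := by ext i; simp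
  rw [h3, Finset.card_compl]

end Vale.Agent.P110.H628
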