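import Vale.Agent.P110.H628.Count

/-! # P110: a good code of flat sign vectors -/

namespace Vale.Agent.P110.H628

open Finset Vale.Agent.P110.RT

/-- Gilbert's greedy selection inside a large set of patterns -/
theorem greedy {N : ℕ} (S : Finset (Fin N → Bool)) (κ : ℝ) (hκ : 0 < κ) (hκ1 : κ ≤ 1)
    (hS : Real.exp (κ * N) ≤ S.card) :
    ∃ C : Finset (Fin N → Bool), C ⊆ S ∧ Real.exp (κ / 2 * N) ≤ C.card ∧
      ∀ a ∈ C, ∀ b ∈ C, a ≠ b → κ ^ 2 / 64 * N ≤ (univ.filter fun i => a i ≠ b i).card := by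
  classical
  set τ : ℝ := κ ^ 2 / 64 with hτ
  set r : ℕ := ⌊τ * N⌋₊ with hr
  have hN0 : (0 : ℝ) ≤ N := Nat.cast_nonneg _
  have hτ0 : 0 < τ := by positivity
  set P : Finset (Finset (Fin N → Bool)) := S.powerset.filter fun C =>
    ∀ a ∈ C, ∀ b ∈ C, a ≠ b → r < (univ.filter fun i => a i ≠ b i).card with hP
  have hPne : P.Nonempty := ⟨∅, by rw [hP, Finset.mem_filter]; simp⟩
  obtain ⟨C, hC, hmax⟩ := Finset.exists_max_image P Finset.card hPne
  obtain ⟨hCS, hCd⟩ := Finset.mem_filter.1 hC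
  rw [Finset.mem_powerset] at hCS
  have hball : ∀ c : Fin N → Bool, ((univ.filter fun e : Fin N → Bool =>
      (univ.filter fun i => e i ≠ c i).card ≤ r).card : ℝ) ≤ Real.exp (κ / 4 * N) := by
    intro c
    have h1 := card_ball_le c (κ / 8) (κ / 8 * N) (by positivity) (by linarith) r (by
      have h2 : κ / 8 = Real.exp (-(Real.log (8 / κ))) := by
        rw [Real.exp_neg, Real.exp_log (by positivity), inv_div]
      have h3 : (κ / 8) ^ r = Real.exp ((r : ℝ) * (-(Real.log (8 / κ)))) := by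
        rw [Real.exp_nat_mul, ← h2]
      rw [h3]
      apply Real.exp_le_exp.2
      have h4 : Real.log (8 / κ) ≤ 8 / κ :=
        (Real.log_le_sub_one_of_pos (by positivity)).trans (by linarith)
      have h5 : 0 ≤ Real.log (8 / κ) := Real.log_nonneg (by
        rw [le_div_iff₀ hκ]; linarith)
      have h6 : (r : ℝ) ≤ τ * N := Nat.floor_le (by positivity)
      have h7 : (r : ℝ) * Real.log (8 / κ) ≤ τ * N * (8 / κ) :=
        mul_le_mul h6 h4 h5 (by positivity)
      have h8 : τ * N * (8 / κ) = κ / 8 * N := by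
        rw [hτ]; field_simp; ring
      linarith)
    rw [Fintype.card_fin] at h1
    refine h1.trans (Real.exp_le_exp.2 (le_of_eq ?_))
    ring
  have hcov : S ⊆ C.biUnion fun c => univ.filter fun e : Fin N → Bool =>
      (univ.filter fun i => e i ≠ c i).card ≤ r := by
    intro x hx
    by_contra hcon
    simp only [mem_biUnion, mem_filter, mem_univ, true_and, not_exists, not_and, not_le] at hcon
    have hxC : x ∉ C := by
      intro h
      have h1 := hcon x h
      simp at h1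
    have h2 : insert x C ∈ P := by
      rw [hP, Finset.mem_filter, Finset.mem_powerset]
      refine ⟨Finset.insert_subset hx hCS, ?_⟩
      intro a ha b hb hab
      rw [Finset.mem_insert] at ha hb
      rcases ha with rfl | ha
      · rcases hb with rfl | hb
        · exact absurd rfl hab
        · exact hcon b hb
      · rcases hb with rfl | hb
        · have h3 := hcon a ha
          have h4 : (univ.filter fun i => a i ≠ b i) = univ.filter fun i => b i ≠ a i := by
            ext i; simp [ne_comm]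
          rw [h4]; exact h3
        · exact hCd a ha b hb hab
    have h3 := hmax _ h2
    rw [Finset.card_insert_of_notMem hxC] at h3
    omega
  have hcard : (S.card : ℝ) ≤ C.card * Real.exp (κ / 4 * N) := by
    have h1 : (S.card : ℝ) ≤ ∑ c ∈ C, ((univ.filter fun e : Fin N → Bool =>
        (univ.filter fun i => e i ≠ c i).card ≤ r).card : ℝ) := by
      exact_mod_cast (Finset.card_le_card hcov).trans Finset.card_biUnion_le
    refine h1.trans ?_
    rw [← nsmul_eq_mul]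
    exact Finset.sum_le_card_nsmul _ _ _ fun c _ => hball c
  refine ⟨C, hCS, ?_, fun a ha b hb hab => ?_⟩
  · have h1 : Real.exp (κ * N) = Real.exp (3 / 4 * κ * N) * Real.exp (κ / 4 * N) := by
      rw [← Real.exp_add]; congr 1; ring
    have h2 : Real.exp (3 / 4 * κ * N) ≤ C.card := by
      have h3 := hS.trans hcard
      rw [h1] at h3
      exact le_of_mul_le_mul_right h3 (Real.exp_pos _)
    refine le_trans (Real.exp_le_exp.2 ?_) h2
    apply mul_le_mul_of_nonneg_right _ hN0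
    linarith
  · have h1 := hCd a ha b hb hab
    exact (Nat.lt_of_floor_lt h1).le

/-- exponentially many flat vectors at every large length, explicit exponent -/
theorem exists_code (c : ℝ) (hc : 0 < c) (hc1 : c ≤ 1) : ∃ N₀ : ℕ, ∀ N : ℕ, N₀ ≤ N →
    ∃ C : Finset (Fin N → Bool), Real.exp (c ^ 8 / 10 ^ 60 * N) ≤ C.card ∧
      (∀ b ∈ C, FlatB c b) ∧
      ∀ a ∈ C, ∀ b ∈ C, a ≠ b →
        (c ^ 8 / 10 ^ 60) ^ 2 * N ≤ (univ.filter fun i => a i ≠ b i).card := by
  classical
  have hx1 : 1 ≤ (10 ^ 7 / c) ^ 8 := by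
    apply one_le_pow₀
    rw [le_div_iff₀ hc]; linarith
  obtain ⟨n₀, hn₀, hn₁⟩ := exists_nat_pow_near hx1 (one_lt_two)
  set n := n₀ + 1 with hn
  have hn2 : (2 : ℝ) ^ n ≤ 2 * (10 ^ 7 / c) ^ 8 := by rw [hn, pow_succ]; linarith
  obtain ⟨N₁, hN₁⟩ := ultraflatB (c / 16) (by positivity)
  refine ⟨max N₁ ⌈(4 * 10 ^ 6 * (2 : ℝ) ^ n) ^ 2⌉₊, fun N hN => ?_⟩
  obtain ⟨a, ha⟩ := hN₁ N ((le_max_left _ _).trans hN)
  have hNn : (4 * 10 ^ 6 * (2 : ℝ) ^ n) ^ 2 ≤ N :=
    (Nat.le_ceil _).trans (by exact_mod_cast (le_max_right _ _).trans hN)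
  obtain ⟨S, hS1, hS2⟩ := many_of_flat c hc hc1 n N (by omega) (num c hc hc1 n hn₁.le N hNn) a ha
  have hN0 : (0 : ℝ) ≤ N := Nat.cast_nonneg _
  have hκ0 : 0 < c ^ 8 / 10 ^ 59 := by positivity
  have hκ1 : c ^ 8 / 10 ^ 59 ≤ 1 := by
    rw [div_le_one (by norm_num)]
    have : c ^ 8 ≤ 1 := pow_le_one₀ hc.le hc1
    linarith
  have hκ : c ^ 8 / 10 ^ 59 * N ≤ N / 2 ^ n / 500 := by
    have h1 : c ^ 8 / 10 ^ 59 = 1 / (2 * (10 ^ 7 / c) ^ 8) / 500 := by
      field_simp; norm_num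
    have h2 : 1 / (2 * (10 ^ 7 / c) ^ 8) ≤ 1 / 2 ^ n := one_div_le_one_div_of_le (by positivity) hn2
    rw [h1]
    calc 1 / (2 * (10 ^ 7 / c) ^ 8) / 500 * N ≤ 1 / 2 ^ n / 500 * N := by gcongr
      _ = N / 2 ^ n / 500 := by ring
  obtain ⟨C, hCS, hC1, hC2⟩ := greedy S (c ^ 8 / 10 ^ 59) hκ0 hκ1
    ((Real.exp_le_exp.2 hκ).trans hS1)
  refine ⟨C, ?_, fun b hb => hS2 b (hCS hb), fun a ha b hb hab => ?_⟩
  · refine le_trans (Real.exp_le_exp.2 ?_) hC1
    apply mul_le_mul_of_nonneg_right _ hN0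
    have : 0 ≤ c ^ 8 := by positivity
    rw [div_div, div_le_div_iff₀ (by norm_num) (by norm_num)]
    nlinarith
  · refine le_trans ?_ (hC2 a ha b hb hab)
    apply mul_le_mul_of_nonneg_right _ hN0
    have h1 : (c ^ 8 / 10 ^ 59) ^ 2 / 64 = (c ^ 8 / 10 ^ 60) ^ 2 * (100 / 64) := by
      field_simp
      norm_num
    rw [h1]
    have h2 : 0 ≤ (c ^ 8 / 10 ^ 60) ^ 2 := by positivity
    linarith

end Vale.Agent.P110.H628
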