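import Vale.Agent.P110.H628.Round

/-! # P110: one move from a sign vector to another one -/

namespace Vale.Agent.P110.H628

open Finset Vale.Agent.P110.RT

/-- the grid functionals -/
noncomputable def gv (N : ℕ) (j : Fin (40 * N) × Bool) (k : Fin N) : ℝ :=
  if j.2 then (e ((k : ℕ) * ((j.1 : ℕ) / (40 * N : ℝ)))).re
    else (e ((k : ℕ) * ((j.1 : ℕ) / (40 * N : ℝ)))).im

theorem abs_gv_le (N : ℕ) (j : Fin (40 * N) × Bool) (k : Fin N) : |gv N j k| ≤ 1 := by
  unfold gv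
  split_ifs
  · exact (Complex.abs_re_le_norm _).trans (RT.norm_e _).le
  · exact (Complex.abs_im_le_norm _).trans (RT.norm_e _).le

theorem grid_bound_fin (N : ℕ) (hN : 1 ≤ N) (q : Fin N → ℝ) (B : ℝ)
    (h : ∀ j : Fin (40 * N) × Bool, |∑ k, q k * gv N j k| ≤ B) (θ : ℝ) :
    ‖∑ k : Fin N, (q k : ℂ) * e (k * θ)‖ ≤ 4 * B := by
  classical
  have hconv : ∀ t : ℝ, ∑ k ∈ range N, ((if h : k < N then q ⟨k, h⟩ else 0 : ℝ) : ℂ) * e (k * t) =
      ∑ k : Fin N, (q k : ℂ) * e (k * t) := by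
    intro t
    rw [Finset.sum_range]
    refine Finset.sum_congr rfl fun k _ => ?_
    rw [dif_pos k.2]
  have h1 := grid_bound N hN (fun k => ((if h : k < N then q ⟨k, h⟩ else 0 : ℝ) : ℂ)) (2 * B)
    (fun j => by
      rw [hconv]
      refine (Complex.norm_le_abs_re_add_abs_im _).trans ?_
      have h2 := h (j, true)
      have h3 := h (j, false)
      simp only [gv, if_true] at h2
      simp only [gv, Bool.false_eq_true, if_false] at h3
      rw [Complex.re_sum, Complex.im_sum]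
      have h4 : ∑ k : Fin N, ((q k : ℂ) * e ((k : ℕ) * ((j : ℕ) / (40 * N : ℝ)))).re =
          ∑ k : Fin N, q k * (e ((k : ℕ) * ((j : ℕ) / (40 * N : ℝ)))).re :=
        Finset.sum_congr rfl fun k _ => by rw [Complex.re_ofReal_mul]
      have h5 : ∑ k : Fin N, ((q k : ℂ) * e ((k : ℕ) * ((j : ℕ) / (40 * N : ℝ)))).im =
          ∑ k : Fin N, q k * (e ((k : ℕ) * ((j : ℕ) / (40 * N : ℝ)))).im :=
        Finset.sum_congr rfl fun k _ => by rw [Complex.im_ofReal_mul]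
      rw [h4, h5]
      linarith) θ
  rw [hconv] at h1
  linarith

/-- the size of the rounding error -/
noncomputable def WW (N n : ℕ) : ℝ :=
  (2 * (2 * N / 2 ^ n : ℝ)) ^ (1 / 8 : ℝ) * ((80 * N + 2 : ℝ)) ^ (3 / 8 : ℝ)

theorem WW_le (N n : ℕ) (hN : 1 ≤ N) : WW N n ≤ 8 * (1 / 2 ^ n : ℝ) ^ (1 / 8 : ℝ) * √(N : ℝ) := by
  have hN0 : (0 : ℝ) < N := by exact_mod_cast hN
  have hδ0 : (0 : ℝ) < 1 / 2 ^ n := by positivity
  set δ : ℝ := 1 / 2 ^ n with hδ
  have h1 : (2 * (2 * N / 2 ^ n : ℝ)) ^ (1 / 8 : ℝ) =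
      (4 : ℝ) ^ (1 / 8 : ℝ) * (δ ^ (1 / 8 : ℝ) * (N : ℝ) ^ (1 / 8 : ℝ)) := by
    rw [← Real.mul_rpow hδ0.le hN0.le, ← Real.mul_rpow (by norm_num) (by positivity)]
    congr 1
    rw [hδ]; ring
  have h2 : ((80 * N + 2 : ℝ)) ^ (3 / 8 : ℝ) ≤ (82 : ℝ) ^ (3 / 8 : ℝ) * (N : ℝ) ^ (3 / 8 : ℝ) := by
    rw [← Real.mul_rpow (by norm_num) hN0.le]
    refine Real.rpow_le_rpow (by positivity) ?_ (by norm_num)
    have : (1 : ℝ) ≤ N := by exact_mod_cast hN
    linarith
  have h3 : (4 : ℝ) ^ (1 / 8 : ℝ) * (82 : ℝ) ^ (3 / 8 : ℝ) ≤ 8 := by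
    have h4 : (4 : ℝ) ^ (1 / 8 : ℝ) * (82 : ℝ) ^ (3 / 8 : ℝ) = ((4 : ℝ) * 82 ^ 3) ^ (1 / 8 : ℝ) := by
      rw [Real.mul_rpow (by norm_num) (by norm_num)]
      congr 1
      rw [← Real.rpow_natCast, ← Real.rpow_mul (by norm_num)]
      norm_num
    rw [h4]
    calc ((4 : ℝ) * 82 ^ 3) ^ (1 / 8 : ℝ) ≤ (8 ^ 8 : ℝ) ^ (1 / 8 : ℝ) :=
          Real.rpow_le_rpow (by norm_num) (by norm_num) (by norm_num)
      _ = 8 := by
          rw [← Real.rpow_natCast, ← Real.rpow_mul (by norm_num)]; norm_num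
  have h5 : (N : ℝ) ^ (1 / 8 : ℝ) * (N : ℝ) ^ (3 / 8 : ℝ) = √(N : ℝ) := by
    rw [← Real.rpow_add hN0, Real.sqrt_eq_rpow]; norm_num
  calc WW N n ≤ ((4 : ℝ) ^ (1 / 8 : ℝ) * (δ ^ (1 / 8 : ℝ) * (N : ℝ) ^ (1 / 8 : ℝ))) *
        ((82 : ℝ) ^ (3 / 8 : ℝ) * (N : ℝ) ^ (3 / 8 : ℝ)) := by
        rw [WW, h1]
        exact mul_le_mul_of_nonneg_left h2 (by positivity)
    _ = ((4 : ℝ) ^ (1 / 8 : ℝ) * (82 : ℝ) ^ (3 / 8 : ℝ)) *
        (δ ^ (1 / 8 : ℝ) * ((N : ℝ) ^ (1 / 8 : ℝ) * (N : ℝ) ^ (3 / 8 : ℝ))) := by ring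
    _ ≤ 8 * (δ ^ (1 / 8 : ℝ) * ((N : ℝ) ^ (1 / 8 : ℝ) * (N : ℝ) ^ (3 / 8 : ℝ))) :=
        mul_le_mul_of_nonneg_right h3 (by positivity)
    _ = _ := by rw [h5]; ring

/-- One move. -/
theorem move (N n : ℕ) (hN : 1 ≤ N) (hn : 1 ≤ n) (hW : 4000 * WW N n ≤ 2 * N / 2 ^ n) (Q : ℝ)
    (a : Fin N → Bool) (s : Fin N → ℤ) (hs : ∀ k, s k = 0 ∨ s k = 1 ∨ s k = -1)
    (T : Finset (Fin N))
    (hcell : ∀ j : Fin (40 * N) × Bool, |∑ k, (s k : ℝ) * (sg (a k) * gv N j k)| ≤ Q) :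
    ∃ b : Fin N → Bool, (∀ k, s k = -1 → b k = a k) ∧
      |∑ k ∈ T, (sg (b k) * sg (a k) - (1 - (1 + s k) / 2 ^ n))| ≤ 6000 * WW N n ∧
      ∀ θ : ℝ, ‖∑ k : Fin N, ((sg (b k) - (1 - 1 / 2 ^ n) * sg (a k) : ℝ) : ℂ) * e (k * θ)‖ ≤
        24000 * WW N n + 4 * Q / 2 ^ n := by
  classical
  have hN0 : (0 : ℝ) < N := by exact_mod_cast hN
  have hp : (0 : ℝ) < 2 ^ n := by positivity
  have hp2 : (2 : ℤ) ≤ 2 ^ n := by
    calc (2 : ℤ) = 2 ^ 1 := by norm_num
      _ ≤ 2 ^ n := pow_le_pow_right₀ (by norm_num) hn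
  have hWW0 : 0 ≤ WW N n := by unfold WW; positivity
  set A : Fin N → ℤ := fun k => if a k then 1 else -1 with hA
  have hAr : ∀ k, ((A k : ℤ) : ℝ) = sg (a k) := by
    intro k; simp only [hA, sg]; split_ifs <;> simp
  have hA1 : ∀ k, A k = 1 ∨ A k = -1 := by
    intro k; simp only [hA]; split_ifs <;> simp
  set z : Fin N → ℤ := fun k => A k * (2 ^ n - 1 - s k) with hz
  have habsz : ∀ k, |z k| = 2 ^ n - 1 - s k := by
    intro k
    have h1 : 0 ≤ 2 ^ n - 1 - s k := by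
      rcases hs k with h | h | h <;> rw [h] <;> linarith
    show |A k * (2 ^ n - 1 - s k)| = _
    rw [abs_mul, abs_of_nonneg h1]
    rcases hA1 k with h | h <;> rw [h] <;> simp
  have hzr : ∀ k, (z k : ℝ) / 2 ^ n = sg (a k) * (1 - (1 + s k) / 2 ^ n) := by
    intro k
    show ((A k * (2 ^ n - 1 - s k) : ℤ) : ℝ) / 2 ^ n = _
    push_cast
    rw [hAr]
    field_simp
    ring
  have hzb : ∀ k, |z k| ≤ 2 ^ n := by
    intro k
    rw [habsz]
    rcases hs k with h | h | h <;> rw [h] <;> linarith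
  have hcardJ : (Fintype.card (Option (Fin (40 * N) × Bool)) : ℝ) = 80 * N + 1 := by
    rw [Fintype.card_option, Fintype.card_prod, Fintype.card_fin, Fintype.card_bool]
    push_cast; ring
  have hsum : ∑ k, (1 - |(z k : ℝ) / 2 ^ n|) ≤ 2 * N / 2 ^ n := by
    have h1 : ∀ k : Fin N, 1 - |(z k : ℝ) / 2 ^ n| ≤ 2 / 2 ^ n := by
      intro k
      have h2 : |(z k : ℝ)| = 2 ^ n - 1 - s k := by
        have := habsz k
        rw [← Int.cast_abs, this]; push_cast; ring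
      rw [abs_div, abs_of_pos hp, h2]
      have h3 : 1 - (2 ^ n - 1 - (s k : ℝ)) / 2 ^ n = (1 + s k) / 2 ^ n := by
        field_simp; ring
      rw [h3]
      apply div_le_div_of_nonneg_right _ hp.le
      have h4 : s k ≤ 1 := by rcases hs k with h | h | h <;> rw [h] <;> norm_num
      have h5 : (s k : ℝ) ≤ 1 := by exact_mod_cast h4
      linarith
    calc ∑ k, (1 - |(z k : ℝ) / 2 ^ n|) ≤ ∑ _k : Fin N, (2 / 2 ^ n : ℝ) :=
          Finset.sum_le_sum fun k _ => h1 k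
      _ = 2 * N / 2 ^ n := by
          rw [Finset.sum_const, Finset.card_univ, Fintype.card_fin, nsmul_eq_mul]; ring
  obtain ⟨ε, hε, hεs, hεb⟩ := dyadic_rounding' (κ := Fin N) (J := Option (Fin (40 * N) × Bool))
    (fun o k => o.elim (if k ∈ T then sg (a k) else 0) (fun j => gv N j k))
    (fun o k => by
      cases o with
      | none =>
        simp only [Option.elim_none]
        split_ifs
        · rw [sg_abs]
        · simp
      | some j => simpa only [Option.elim_some] using abs_gv_le N j k)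
    (by
      rw [Fintype.card_option, Fintype.card_prod, Fintype.card_fin, Fintype.card_fin,
        Fintype.card_bool]; omega)
    (2 * N / 2 ^ n) (WW N n) (by positivity)
    (by rw [hcardJ, WW]; norm_num [add_assoc]) n z hzb
    (by
      have h1 : (0 : ℝ) ≤ 0.55 ^ n := by positivity
      have h2 : 4000 * WW N n * (1 - 0.55 ^ n) ≤ 4000 * WW N n := by nlinarith
      linarith)
  set b : Fin N → Bool := fun k => decide (ε k = 1) with hb
  have hbε : ∀ k, sg (b k) = ε k := by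
    intro k
    rcases hε k with h | h
    · simp [hb, h, sg]
    · have h1 : ¬ (ε k = 1) := by rw [h]; norm_num
      have h2 : b k = false := by simp only [hb]; exact decide_eq_false h1
      rw [h2, h]
      simp [sg]
  have herr : ∀ o : Option (Fin (40 * N) × Bool),
      |∑ k, (ε k - (z k : ℝ) / 2 ^ n) * (o.elim (if k ∈ T then sg (a k) else 0)
        (fun j => gv N j k))| ≤ 6000 * WW N n := by
    intro o
    refine (hεb o).trans ?_
    have h1 : (0 : ℝ) ≤ 0.55 ^ n := by positivity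
    nlinarith
  refine ⟨b, fun k hk => ?_, ?_, fun θ => ?_⟩
  · have h1 := hεs k (by rw [habsz, hk]; ring)
    rw [hzr k, hk] at h1
    have h2 : ε k = sg (a k) := by rw [h1]; push_cast; ring
    have h3 : sg (b k) = sg (a k) := by rw [hbε, h2]
    revert h3
    cases b k <;> cases a k <;> simp [sg] <;> norm_num
  · have h1 := herr none
    simp only [Option.elim_none] at h1
    refine le_trans (le_of_eq ?_) h1
    congr 1
    rw [← Finset.sum_filter_add_sum_filter_not univ (fun k => k ∈ T)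
      (fun k => (ε k - (z k : ℝ) / 2 ^ n) * (if k ∈ T then sg (a k) else 0))]
    have h2 : ∑ k ∈ univ.filter (fun k => k ∉ T),
        (ε k - (z k : ℝ) / 2 ^ n) * (if k ∈ T then sg (a k) else 0) = 0 := by
      refine Finset.sum_eq_zero fun k hk => ?_
      rw [if_neg (Finset.mem_filter.1 hk).2, mul_zero]
    rw [h2, add_zero]
    have h3 : univ.filter (fun k => k ∈ T) = T := by ext k; simp
    rw [h3]
    refine Finset.sum_congr rfl fun k hk => ?_
    rw [if_pos hk, hbε, hzr k]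
    have h4 := sg_sq (a k)
    linear_combination (1 - (1 + (s k : ℝ)) / 2 ^ n) * h4
  · have h1 := grid_bound_fin N hN (fun k => sg (b k) - (1 - 1 / 2 ^ n) * sg (a k))
      (6000 * WW N n + Q / 2 ^ n) (fun j => by
        have h2 := herr (some j)
        simp only [Option.elim_some] at h2
        have h3 := hcell j
        have h4 : ∑ k, (sg (b k) - (1 - 1 / 2 ^ n) * sg (a k)) * gv N j k =
            ∑ k, (ε k - (z k : ℝ) / 2 ^ n) * gv N j k -
              (∑ k, (s k : ℝ) * (sg (a k) * gv N j k)) / 2 ^ n := by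
          rw [Finset.sum_div, ← Finset.sum_sub_distrib]
          refine Finset.sum_congr rfl fun k _ => ?_
          rw [hbε, hzr k]
          ring
        rw [h4]
        refine (abs_sub _ _).trans ?_
        rw [abs_div, abs_of_pos hp]
        exact add_le_add h2 (div_le_div_of_nonneg_right h3 hp.le)) θ
    refine h1.trans (le_of_eq ?_)
    ring

end Vale.Agent.P110.H628
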