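import Vale.Agent.P110.H628.Cell
import Vale.Agent.P110.H628.Move

/-! # P110: combinatorial lemmas for the count -/

namespace Vale.Agent.P110.H628

open Finset Vale.Agent.P110.RT

/-- the set where both patterns have the value `σ` -/
def agr {N : ℕ} (e₀ : Fin N → Bool) (σ : Bool) (e : Fin N → Bool) : Finset (Fin N) :=
  univ.filter fun k => e₀ k = σ ∧ e k = σ

theorem card_agr {N : ℕ} (e₀ e : Fin N → Bool) :
    (univ.filter fun i => e i ≠ !(e₀ i)).card = (agr e₀ true e).card + (agr e₀ false e).card := by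
  classical
  rw [← Finset.card_union_of_disjoint]
  · congr 1
    ext k
    simp only [agr, mem_filter, mem_univ, true_and, mem_union]
    cases e k <;> cases e₀ k <;> simp
  · rw [Finset.disjoint_left]
    intro k hk hk'
    simp only [agr, mem_filter, mem_univ, true_and] at hk hk'
    rw [hk.1] at hk'
    simp at hk'

/-- few patterns are almost opposite to `e₀` -/
theorem card_opp {N : ℕ} (e₀ : Fin N → Bool) :
    ((univ.filter fun e : Fin N → Bool =>
      (univ.filter fun i => e i ≠ !(e₀ i)).card ≤ N / 20).card : ℝ) ≤ Real.exp (N / 5) := by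
  classical
  have h1 := card_ball_le (fun i => !(e₀ i)) (1 / 20) (3 * N / 20) (by norm_num) (by norm_num)
    (N / 20) (by
      have h2 : Real.exp (-3) ≤ 1 / 20 := by
        rw [Real.exp_neg, ← one_div]
        apply one_div_le_one_div_of_le (by norm_num)
        have h3 := Real.exp_one_gt_d9
        have h4 : Real.exp 3 = Real.exp 1 ^ 3 := by rw [← Real.exp_nat_mul]; norm_num
        rw [h4]
        calc (20 : ℝ) ≤ 2.7182818283 ^ 3 := by norm_num
          _ ≤ _ := pow_le_pow_left₀ (by norm_num) h3.le 3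
      have h5 : ((N / 20 : ℕ) : ℝ) ≤ N / 20 := by
        have := @Nat.cast_div_le ℝ _ _ _ N 20
        exact_mod_cast this
      calc Real.exp (-(3 * N / 20)) ≤ Real.exp (((N / 20 : ℕ) : ℝ) * (-3)) := by
            apply Real.exp_le_exp.2
            linarith
        _ = Real.exp (-3) ^ (N / 20) := Real.exp_nat_mul _ _
        _ ≤ (1 / 20) ^ (N / 20) := pow_le_pow_left₀ (Real.exp_pos _).le h2 _)
  rw [Fintype.card_fin] at h1
  refine h1.trans (Real.exp_le_exp.2 ?_)
  linarith

/-- most patterns of a large set agree with `e₀`, with a common value `σ`, on many coordinates -/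
theorem exists_sigma {N : ℕ} (F : Finset (Fin N → Bool)) (e₀ : Fin N → Bool)
    (hF : 2 * Real.exp (N / 5) ≤ F.card) :
    ∃ σ : Bool, (F.card : ℝ) / 4 ≤
      (F.filter fun e => (N : ℝ) / 40 ≤ (agr e₀ σ e).card).card := by
  classical
  set B := univ.filter fun e : Fin N → Bool =>
    (univ.filter fun i => e i ≠ !(e₀ i)).card ≤ N / 20 with hB
  have hBcard := card_opp e₀
  rw [← hB] at hBcard
  have hcover : F \ B ⊆ (F.filter fun e => (N : ℝ) / 40 ≤ (agr e₀ true e).card) ∪
      (F.filter fun e => (N : ℝ) / 40 ≤ (agr e₀ false e).card) := by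
    intro e he
    rw [Finset.mem_sdiff] at he
    obtain ⟨heF, heB⟩ := he
    have h1 : N / 20 < (univ.filter fun i => e i ≠ !(e₀ i)).card := by
      by_contra h
      apply heB
      rw [hB, Finset.mem_filter]
      exact ⟨Finset.mem_univ _, not_lt.1 h⟩
    rw [card_agr] at h1
    have h3 : (N : ℝ) / 20 ≤ (agr e₀ true e).card + (agr e₀ false e).card := by
      have h4 : N ≤ 20 * ((agr e₀ true e).card + (agr e₀ false e).card) := by omega
      have h5 : (N : ℝ) ≤ 20 * ((agr e₀ true e).card + (agr e₀ false e).card) := by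
        exact_mod_cast h4
      linarith
    rw [Finset.mem_union]
    rcases le_or_gt ((N : ℝ) / 40) (agr e₀ true e).card with h | h
    · left
      exact Finset.mem_filter.2 ⟨heF, h⟩
    · right
      refine Finset.mem_filter.2 ⟨heF, ?_⟩
      linarith
  by_contra hcon
  push Not at hcon
  have h1 := hcon true
  have h2 := hcon false
  have h3 : ((F \ B).card : ℝ) ≤ (F.filter fun e => (N : ℝ) / 40 ≤ (agr e₀ true e).card).card +
      (F.filter fun e => (N : ℝ) / 40 ≤ (agr e₀ false e).card).card := by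
    exact_mod_cast (Finset.card_le_card hcover).trans (Finset.card_union_le _ _)
  have h4 : (F.card : ℝ) ≤ (F \ B).card + B.card := by
    have h5 : F.card ≤ (F \ B).card + B.card := by
      have := Finset.le_card_sdiff B F
      omega
    exact_mod_cast h5
  linarith

/-- the pattern of the move -/
def sv {N : ℕ} (e₀ : Fin N → Bool) (σ : Bool) (e : Fin N → Bool) (k : Fin N) : ℤ :=
  if e k = e₀ k then 0 else if e₀ k = σ then -1 else 1

theorem sv_real {N : ℕ} (e₀ : Fin N → Bool) (σ : Bool) (e : Fin N → Bool) (k : Fin N) :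
    ((sv e₀ σ e k : ℤ) : ℝ) = sg σ * ((sg (e k) - sg (e₀ k)) / 2) := by
  unfold sv
  cases e k <;> cases e₀ k <;> cases σ <;> simp [sg] <;> norm_num

theorem sv_cases {N : ℕ} (e₀ : Fin N → Bool) (σ : Bool) (e : Fin N → Bool) (k : Fin N) :
    sv e₀ σ e k = 0 ∨ sv e₀ σ e k = 1 ∨ sv e₀ σ e k = -1 := by
  unfold sv
  split_ifs <;> simp

/-- the move attached to two patterns of the cell -/
theorem move_cell (N n : ℕ) (hN : 1 ≤ N) (hn : 1 ≤ n) (hW : 4000 * WW N n ≤ 2 * N / 2 ^ n) (Q : ℝ)
    (a e₀ f : Fin N → Bool) (σ : Bool)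
    (hcell : ∀ j : Fin (40 * N) × Bool,
      |∑ k, (sg (f k) - sg (e₀ k)) / 2 * (sg (a k) * gv N j k)| ≤ Q) :
    ∃ b : Fin N → Bool, (∀ k, e₀ k = σ → b k ≠ a k → f k = σ) ∧
      ((agr e₀ σ f).card : ℝ) / 2 ^ n - 6000 * WW N n ≤
        2 * (univ.filter fun k => e₀ k = σ ∧ b k ≠ a k).card ∧
      ∀ θ : ℝ, ‖∑ k : Fin N, ((sg (b k) - (1 - 1 / 2 ^ n) * sg (a k) : ℝ) : ℂ) * e (k * θ)‖ ≤
        24000 * WW N n + 4 * Q / 2 ^ n := by
  classical
  obtain ⟨b, hb1, hb2, hb3⟩ := move N n hN hn hW Q a (sv e₀ σ f) (sv_cases e₀ σ f)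
    (univ.filter fun k => e₀ k = σ) (fun j => by
      have h1 : ∑ k, ((sv e₀ σ f k : ℤ) : ℝ) * (sg (a k) * gv N j k) =
          sg σ * ∑ k, (sg (f k) - sg (e₀ k)) / 2 * (sg (a k) * gv N j k) := by
        rw [Finset.mul_sum]
        refine Finset.sum_congr rfl fun k _ => ?_
        rw [sv_real]; ring
      rw [h1, abs_mul, sg_abs, one_mul]
      exact hcell j)
  refine ⟨b, fun k hk hbk => ?_, ?_, hb3⟩
  · by_contra hf
    apply hbk
    apply hb1
    unfold sv
    rw [if_neg (fun h => hf (h.trans hk)), if_pos hk]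
  · have h1 : ∑ k ∈ univ.filter (fun k => e₀ k = σ),
        (sg (b k) * sg (a k) - (1 - (1 + ((sv e₀ σ f k : ℤ) : ℝ)) / 2 ^ n)) =
        ((agr e₀ σ f).card : ℝ) / 2 ^ n - 2 * (univ.filter fun k => e₀ k = σ ∧ b k ≠ a k).card := by
      have h2 : ∀ k ∈ univ.filter (fun k => e₀ k = σ),
          (sg (b k) * sg (a k) - (1 - (1 + ((sv e₀ σ f k : ℤ) : ℝ)) / 2 ^ n)) =
          (if f k = σ then (1 : ℝ) else 0) / 2 ^ n - 2 * (if b k ≠ a k then (1 : ℝ) else 0) := by
        intro k hk
        have hk' : e₀ k = σ := (Finset.mem_filter.1 hk).2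
        have h3 : (1 + ((sv e₀ σ f k : ℤ) : ℝ)) = if f k = σ then (1 : ℝ) else 0 := by
          unfold sv
          by_cases hf : f k = σ
          · rw [if_pos (hf.trans hk'.symm), if_pos hf]; simp
          · rw [if_neg (fun h => hf (h.trans hk')), if_pos hk', if_neg hf]; simp
        have h4 : sg (b k) * sg (a k) = 1 - 2 * (if b k ≠ a k then (1 : ℝ) else 0) := by
          cases b k <;> cases a k <;> simp [sg] <;> norm_num
        rw [h3, h4]
        ring
      rw [Finset.sum_congr rfl h2, Finset.sum_sub_distrib, ← Finset.sum_div, ← Finset.mul_sum,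
        Finset.sum_boole, Finset.sum_boole, Finset.filter_filter, Finset.filter_filter]
      rfl
    rw [h1] at hb2
    have h3 := (abs_le.1 hb2).2
    linarith

/-- few patterns lead to the same sign vector -/
theorem card_image_ge {N : ℕ} (G : Finset (Fin N → Bool)) (a e₀ : Fin N → Bool) (σ : Bool)
    (Φ : (Fin N → Bool) → Fin N → Bool) (r : ℕ) (hr : r ≤ N)
    (h1 : ∀ f ∈ G, ∀ k, e₀ k = σ → Φ f k ≠ a k → f k = σ)
    (h2 : ∀ f ∈ G, r ≤ (univ.filter fun k => e₀ k = σ ∧ Φ f k ≠ a k).card) :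
    G.card * 2 ^ r ≤ 2 ^ N * (G.image Φ).card := by
  classical
  have h3 : G.card ≤ 2 ^ (N - r) * (G.image Φ).card := by
    refine Finset.card_le_mul_card_image G (2 ^ (N - r)) fun b hb => ?_
    rw [Finset.mem_image] at hb
    obtain ⟨f₀, hf₀, rfl⟩ := hb
    set T := univ.filter fun k => e₀ k = σ ∧ Φ f₀ k ≠ a k with hT
    have h4 : (G.filter fun f => Φ f = Φ f₀) ⊆ univ.filter fun f : Fin N → Bool =>
        ∀ k ∈ T, f k = σ := by
      intro f hf
      rw [Finset.mem_filter] at hf
      refine Finset.mem_filter.2 ⟨Finset.mem_univ _, fun k hk => ?_⟩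
      have hk' := (Finset.mem_filter.1 hk).2
      exact h1 f hf.1 k hk'.1 (by rw [hf.2]; exact hk'.2)
    refine (Finset.card_le_card h4).trans ?_
    have h5 : (univ.filter fun f : Fin N → Bool => ∀ k ∈ T, f k = σ).card = 2 ^ (N - T.card) := by
      have h6 := card_prescribed T σ
      rw [Fintype.card_fin] at h6
      convert h6
    rw [h5]
    apply Nat.pow_le_pow_right (by norm_num)
    have h7 : r ≤ T.card := by
      have := h2 f₀ hf₀
      convert this
    omega
  calc G.card * 2 ^ r ≤ 2 ^ (N - r) * (G.image Φ).card * 2 ^ r := Nat.mul_le_mul_right _ h3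
    _ = 2 ^ (N - r) * 2 ^ r * (G.image Φ).card := by ring
    _ = 2 ^ N * (G.image Φ).card := by rw [← pow_add, Nat.sub_add_cancel hr]

end Vale.Agent.P110.H628
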