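import Vale.Agent.P110.H628.Comb

/-! # P110: exponentially many flat sign vectors -/

namespace Vale.Agent.P110.H628

open Finset Vale.Agent.P110.RT

/-- the trigonometric polynomial with the signs `b` -/
noncomputable def tp {N : ℕ} (b : Fin N → Bool) (θ : ℝ) : ℂ :=
  ∑ k : Fin N, (sg (b k) : ℂ) * e (k * θ)

/-- flatness, for sign vectors written with Booleans -/
def FlatB (c : ℝ) {N : ℕ} (b : Fin N → Bool) : Prop :=
  ∀ θ : ℝ, (1 - c) * √(N : ℝ) ≤ ‖tp b θ‖ ∧ ‖tp b θ‖ ≤ (1 + c) * √(N : ℝ)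

/-- the Boolean form of the ultraflat theorem -/
theorem ultraflatB (c : ℝ) (hc : 0 < c) :
    ∃ N₀ : ℕ, ∀ N : ℕ, N₀ ≤ N → ∃ a : Fin N → Bool, FlatB c a := by
  obtain ⟨N₀, h⟩ := Vale.Agent.P110.ultraflat c hc
  refine ⟨N₀, fun N hN => ?_⟩
  obtain ⟨a, ha⟩ := h N hN
  refine ⟨fun k => decide (a k = 1), fun θ => ?_⟩
  have h1 : tp (fun k => decide (a k = 1)) θ = ∑ k : Fin N, ((a k : ℤ) : ℂ) * (e θ) ^ (k : ℕ) := by
    unfold tp
    refine Finset.sum_congr rfl fun k _ => ?_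
    rw [fin_e_pow]
    congr 1
    rcases Int.units_eq_one_or (a k) with h | h
    · simp [h, sg]
    · have h2 : ¬ ((-1 : ℤˣ) = 1) := by decide
      simp [h, sg, h2]
  rw [h1]
  exact ha _ (RT.norm_e θ)

/-- the numerical facts used below; `K = c 2^n / 64` -/
structure Num (c : ℝ) (n N : ℕ) : Prop where
  hN1 : 1 ≤ N
  hW : 4000 * WW N n ≤ 2 * N / 2 ^ n
  hW3 : 6000 * WW N n ≤ N / 2 ^ n / 80
  hQ : 24000 * WW N n + 4 * (c * 2 ^ n / 64 * √(N : ℝ)) / 2 ^ n ≤ c / 8 * √(N : ℝ)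
  hK : 2 ≤ c * 2 ^ n / 64
  hent : 10 * (80 * (N : ℝ)) / (c * 2 ^ n / 64) ^ 2 ≤ N / 2 ^ n / 1000
  hδ : 1 / 2 ^ n ≤ c / 16
  hδN : 4 * 10 ^ 6 ≤ (N : ℝ) / 2 ^ n

theorem num (c : ℝ) (hc : 0 < c) (hc1 : c ≤ 1) (n : ℕ)
    (hnc : (10 ^ 7 / c) ^ 8 ≤ (2 : ℝ) ^ n) (N : ℕ)
    (hNn : (4 * 10 ^ 6 * (2 : ℝ) ^ n) ^ 2 ≤ N) : Num c n N := by
  have hp : (0 : ℝ) < 2 ^ n := by positivity
  have hp1 : (1 : ℝ) ≤ 2 ^ n := one_le_pow₀ (by norm_num)
  set δ : ℝ := 1 / 2 ^ n with hδ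
  have hδ0 : 0 < δ := by positivity
  have hδ1 : δ ≤ 1 := by rw [hδ, div_le_one hp]; exact hp1
  have hδc8 : δ ≤ (c / 10 ^ 7) ^ 8 := by
    have h1 : (c / 10 ^ 7) ^ 8 = 1 / (10 ^ 7 / c) ^ 8 := by
      rw [div_pow, div_pow]; field_simp
    rw [hδ, h1]
    exact one_div_le_one_div_of_le (by positivity) hnc
  have hδc : δ ^ (1 / 8 : ℝ) ≤ c / 10 ^ 7 := by
    calc δ ^ (1 / 8 : ℝ) ≤ ((c / 10 ^ 7) ^ 8) ^ (1 / 8 : ℝ) :=
          Real.rpow_le_rpow hδ0.le hδc8 (by norm_num)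
      _ = c / 10 ^ 7 := by
          rw [← Real.rpow_natCast, ← Real.rpow_mul (by positivity)]; norm_num
  have hc7 : c / 10 ^ 7 ≤ 1 := by rw [div_le_one (by norm_num)]; linarith
  have hc70 : 0 < c / 10 ^ 7 := by positivity
  have hδc2 : δ ≤ (c / 10 ^ 7) ^ 2 :=
    hδc8.trans (pow_le_pow_of_le_one hc70.le hc7 (by norm_num))
  have hδc1 : δ ≤ c / 10 ^ 7 := by
    refine hδc2.trans ?_
    nlinarith
  have hNpos : (0 : ℝ) < N := lt_of_lt_of_le (by positivity) hNn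
  have hN1 : 1 ≤ N := by exact_mod_cast hNpos
  have hsN : √(N : ℝ) * √(N : ℝ) = N := Real.mul_self_sqrt hNpos.le
  have hsN0 : 0 < √(N : ℝ) := Real.sqrt_pos.2 hNpos
  have hsq : 4 * 10 ^ 6 * (2 : ℝ) ^ n ≤ √(N : ℝ) := Real.le_sqrt_of_sq_le hNn
  have hsqδ : 4 * 10 ^ 6 ≤ δ * √(N : ℝ) := by
    rw [hδ, one_div, inv_mul_eq_div, le_div_iff₀ hp]
    exact hsq
  have hsqδ2 : 4 * 10 ^ 6 * √(N : ℝ) ≤ δ * N := by
    calc 4 * 10 ^ 6 * √(N : ℝ) ≤ (δ * √(N : ℝ)) * √(N : ℝ) :=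
          mul_le_mul_of_nonneg_right hsqδ hsN0.le
      _ = δ * N := by rw [mul_assoc, hsN]
  have hsN1 : 1 ≤ √(N : ℝ) := by nlinarith
  have hδN : 4 * 10 ^ 6 ≤ δ * N := by nlinarith
  have hδN' : (N : ℝ) / 2 ^ n = δ * N := by rw [hδ]; ring
  -- the rounding error
  have hWW0 : 0 ≤ WW N n := by unfold WW; positivity
  have hWle := WW_le N n hN1
  rw [← hδ] at hWle
  have hW1 : WW N n ≤ 8 * √(N : ℝ) := by
    refine hWle.trans ?_
    have : δ ^ (1 / 8 : ℝ) ≤ 1 := hδc.trans hc7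
    nlinarith
  have hW2 : WW N n ≤ 8 * (c / 10 ^ 7) * √(N : ℝ) := by
    refine hWle.trans ?_
    have := mul_le_mul_of_nonneg_right hδc hsN0.le
    linarith
  refine ⟨hN1, ?_, ?_, ?_, ?_, ?_, ?_, ?_⟩
  · have h1 : 2 * (N : ℝ) / 2 ^ n = 2 * (δ * N) := by rw [hδ]; ring
    rw [h1]
    linarith
  · rw [hδN']; linarith
  · have h1 : 4 * (c * 2 ^ n / 64 * √(N : ℝ)) / 2 ^ n = c / 16 * √(N : ℝ) := by
      field_simp; norm_num
    rw [h1]
    have h2 : 0 < c * √(N : ℝ) := by positivity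
    linarith
  · have h1 : 128 / c ≤ 2 ^ n := by
      refine le_trans ?_ hnc
      have h2 : 1 ≤ 10 ^ 7 / c := by rw [le_div_iff₀ hc]; linarith
      have h3 : 10 ^ 7 / c ≤ (10 ^ 7 / c) ^ 8 := by
        calc 10 ^ 7 / c = (10 ^ 7 / c) ^ 1 := by ring
          _ ≤ _ := pow_le_pow_right₀ h2 (by norm_num)
      refine le_trans ?_ h3
      exact div_le_div_of_nonneg_right (by norm_num) hc.le
    rw [le_div_iff₀ (by norm_num)]
    rw [div_le_iff₀ hc] at h1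
    linarith
  · have h1 : 10 * (80 * (N : ℝ)) / (c * 2 ^ n / 64) ^ 2 = 3276800 * (δ * N) * (δ / c ^ 2) := by
      rw [hδ]; field_simp; norm_num
    rw [h1, hδN']
    have h2 : δ / c ^ 2 ≤ 1 / 10 ^ 14 := by
      rw [div_le_iff₀ (by positivity)]
      refine hδc2.trans (le_of_eq ?_)
      ring
    have h3 : 0 ≤ 3276800 * (δ * N) := by positivity
    have h4 := mul_le_mul_of_nonneg_left h2 h3
    refine h4.trans ?_
    nlinarith
  · linarith
  · rw [hδN']; exact hδN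

/-- the large cell -/
theorem cell_exists (c : ℝ) (n N : ℕ) (h : Num c n N) (a : Fin N → Bool) :
    ∃ F : Finset (Fin N → Bool),
      Real.exp (N * Real.log 2 - N / 2 ^ n / 1000) / 2 ≤ F.card ∧
      2 * Real.exp (N / 5) ≤ F.card ∧
      ∀ f ∈ F, ∀ f' ∈ F, ∀ j : Fin (40 * N) × Bool,
        |∑ k, (sg (f k) - sg (f' k)) / 2 * (sg (a k) * gv N j k)| ≤
          c * 2 ^ n / 64 * √(N : ℝ) := by
  have hN1 := h.hN1
  have hNpos : (0 : ℝ) < N := by exact_mod_cast hN1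
  have hcardJ : (Fintype.card (Fin (40 * N) × Bool) : ℝ) = 80 * N := by
    rw [Fintype.card_prod, Fintype.card_fin, Fintype.card_bool]
    push_cast; ring
  obtain ⟨F, hF1, hF2⟩ := big_cell (ι := Fin N) (J := Fin (40 * N) × Bool)
    (fun j k => sg (a k) * gv N j k)
    (fun j k => by rw [abs_mul, sg_abs, one_mul]; exact abs_gv_le N j k)
    (by rw [Fintype.card_fin]; exact hN1)
    (by rw [Fintype.card_prod, Fintype.card_fin, Fintype.card_bool]; omega)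
    (c * 2 ^ n / 64) h.hK
  rw [Fintype.card_fin, hcardJ] at hF1
  simp only [Fintype.card_fin] at hF2
  have hFcard : Real.exp (N * Real.log 2) / 2 ≤ Real.exp (N / 2 ^ n / 1000) * F.card := by
    have h1 : Real.exp (N * Real.log 2) = 2 ^ N := by
      rw [← Real.log_pow, Real.exp_log (by positivity)]
    rw [h1]
    refine hF1.trans (mul_le_mul_of_nonneg_right ?_ (Nat.cast_nonneg _))
    exact Real.exp_le_exp.2 h.hent
  have hFcard' : Real.exp (N * Real.log 2 - N / 2 ^ n / 1000) / 2 ≤ F.card := by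
    rw [Real.exp_sub, div_div, div_le_iff₀ (by positivity)]
    rw [div_le_iff₀ (by norm_num)] at hFcard
    linarith
  refine ⟨F, hFcard', ?_, hF2⟩
  have hlog1 := Real.log_two_gt_d9
  have hδN : (N : ℝ) / 2 ^ n ≤ N := div_le_self hNpos.le (one_le_pow₀ (by norm_num))
  have hbig := h.hδN
  have h1 : 4 * Real.exp (N / 5) ≤ Real.exp (N * Real.log 2 - N / 2 ^ n / 1000) := by
    have h2 : Real.exp (N * Real.log 2 - N / 2 ^ n / 1000) =
        Real.exp (N / 5) * Real.exp (N * Real.log 2 - N / 2 ^ n / 1000 - N / 5) := by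
      rw [← Real.exp_add]; congr 1; ring
    rw [h2, mul_comm]
    apply mul_le_mul_of_nonneg_left _ (Real.exp_pos _).le
    have h3 : (3 : ℝ) ≤ N * Real.log 2 - N / 2 ^ n / 1000 - N / 5 := by nlinarith
    have h4 := Real.add_one_le_exp (N * Real.log 2 - N / 2 ^ n / 1000 - N / 5)
    linarith
  linarith

/-- flatness of the result of a move -/
theorem flat_of_move (c : ℝ) (hc : 0 < c) (hc1 : c ≤ 1) (n N : ℕ) (h : Num c n N)
    (a b : Fin N → Bool) (ha : FlatB (c / 16) a)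
    (hb : ∀ θ : ℝ, ‖∑ k : Fin N, ((sg (b k) - (1 - 1 / 2 ^ n) * sg (a k) : ℝ) : ℂ) * e (k * θ)‖ ≤
      c / 8 * √(N : ℝ)) : FlatB c b := by
  intro θ
  have h1 := hb θ
  obtain ⟨h2, h3⟩ := ha θ
  have hs : 0 ≤ √(N : ℝ) := Real.sqrt_nonneg _
  have hp : (0 : ℝ) < 1 / 2 ^ n := by positivity
  have hp1 : (1 : ℝ) / 2 ^ n ≤ 1 := by
    rw [div_le_one (by positivity)]; exact one_le_pow₀ (by norm_num)
  have hδ := h.hδ
  set δ : ℝ := 1 / 2 ^ n with hδd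
  have h4 : ∑ k : Fin N, ((sg (b k) - (1 - δ) * sg (a k) : ℝ) : ℂ) * e (k * θ) =
      tp b θ - ((1 - δ : ℝ) : ℂ) * tp a θ := by
    unfold tp
    rw [Finset.mul_sum, ← Finset.sum_sub_distrib]
    refine Finset.sum_congr rfl fun k _ => ?_
    push_cast
    ring
  rw [h4] at h1
  have h5 : ‖((1 - δ : ℝ) : ℂ) * tp a θ‖ = (1 - δ) * ‖tp a θ‖ := by
    rw [norm_mul, Complex.norm_real, Real.norm_eq_abs, abs_of_nonneg (by linarith)]
  have h6 : ‖tp b θ‖ ≤ ‖tp b θ - ((1 - δ : ℝ) : ℂ) * tp a θ‖ + (1 - δ) * ‖tp a θ‖ := by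
    rw [← h5]
    calc ‖tp b θ‖ = ‖(tp b θ - ((1 - δ : ℝ) : ℂ) * tp a θ) + ((1 - δ : ℝ) : ℂ) * tp a θ‖ := by
          rw [sub_add_cancel]
      _ ≤ _ := norm_add_le _ _
  have h7 : (1 - δ) * ‖tp a θ‖ ≤ ‖tp b θ - ((1 - δ : ℝ) : ℂ) * tp a θ‖ + ‖tp b θ‖ := by
    rw [← h5]
    calc ‖((1 - δ : ℝ) : ℂ) * tp a θ‖
        = ‖tp b θ - (tp b θ - ((1 - δ : ℝ) : ℂ) * tp a θ)‖ := by rw [sub_sub_cancel]
      _ ≤ ‖tp b θ‖ + ‖tp b θ - ((1 - δ : ℝ) : ℂ) * tp a θ‖ := norm_sub_le _ _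
      _ = _ := add_comm _ _
  have h8 : (1 - δ) * ‖tp a θ‖ ≤ (1 + c / 16) * √(N : ℝ) := by
    have h9 : (1 - δ) * ‖tp a θ‖ ≤ 1 * ‖tp a θ‖ :=
      mul_le_mul_of_nonneg_right (by linarith) (norm_nonneg _)
    linarith
  have h9 : (1 - c / 8) * √(N : ℝ) ≤ (1 - δ) * ‖tp a θ‖ := by
    calc (1 - c / 8) * √(N : ℝ) ≤ (1 - δ) * (1 - c / 16) * √(N : ℝ) := by
          apply mul_le_mul_of_nonneg_right _ hs
          nlinarith
      _ = (1 - δ) * ((1 - c / 16) * √(N : ℝ)) := by ring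
      _ ≤ _ := mul_le_mul_of_nonneg_left h2 (by linarith)
  have h10 : 0 ≤ c * √(N : ℝ) := by positivity
  constructor <;> linarith

/-- exponentially many flat vectors from one -/
theorem many_of_flat (c : ℝ) (hc : 0 < c) (hc1 : c ≤ 1) (n N : ℕ) (hn : 1 ≤ n) (h : Num c n N)
    (a : Fin N → Bool) (ha : FlatB (c / 16) a) :
    ∃ S : Finset (Fin N → Bool), Real.exp (N / 2 ^ n / 500) ≤ S.card ∧ ∀ b ∈ S, FlatB c b := by
  classical
  obtain ⟨F, hF1, hF2, hF3⟩ := cell_exists c n N h a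
  have hFne : F.Nonempty := by
    rw [← Finset.card_pos]
    have : (0 : ℝ) < F.card := lt_of_lt_of_le (by positivity) hF1
    exact_mod_cast this
  obtain ⟨e₀, he₀⟩ := hFne
  obtain ⟨σ, hσ⟩ := exists_sigma F e₀ hF2
  set G := F.filter fun f => (N : ℝ) / 40 ≤ (agr e₀ σ f).card with hG
  have hN1 := h.hN1
  have hNpos : (0 : ℝ) < N := by exact_mod_cast hN1
  have hp : (0 : ℝ) < 2 ^ n := by positivity
  have hmv : ∀ f ∈ G, ∃ b : Fin N → Bool, (∀ k, e₀ k = σ → b k ≠ a k → f k = σ) ∧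
      ⌈(N : ℝ) / 2 ^ n / 160⌉₊ ≤ (univ.filter fun k => e₀ k = σ ∧ b k ≠ a k).card ∧
      FlatB c b := by
    intro f hf
    obtain ⟨hfF, hfA⟩ := Finset.mem_filter.1 hf
    obtain ⟨b, hb1, hb2, hb3⟩ := move_cell N n hN1 hn h.hW (c * 2 ^ n / 64 * √(N : ℝ)) a e₀ f σ
      (fun j => hF3 f hfF e₀ he₀ j)
    refine ⟨b, hb1, ?_, flat_of_move c hc hc1 n N h a b ha fun θ => (hb3 θ).trans h.hQ⟩
    rw [Nat.ceil_le]
    have h1 : (N : ℝ) / 40 / 2 ^ n ≤ ((agr e₀ σ f).card : ℝ) / 2 ^ n :=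
      div_le_div_of_nonneg_right hfA hp.le
    have h2 : (N : ℝ) / 40 / 2 ^ n = (N : ℝ) / 2 ^ n / 40 := by ring
    have h3 := h.hW3
    rw [h2] at h1
    linarith
  choose! Φ hΦ1 hΦ2 hΦ3 using hmv
  set r := ⌈(N : ℝ) / 2 ^ n / 160⌉₊ with hr
  have hrN : r ≤ N := by
    rw [hr, Nat.ceil_le]
    have h1 : (N : ℝ) / 2 ^ n ≤ N := div_le_self hNpos.le (one_le_pow₀ (by norm_num))
    linarith
  have hcount := card_image_ge G a e₀ σ Φ r hrN hΦ1 hΦ2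
  refine ⟨G.image Φ, ?_, fun b hb => ?_⟩
  · have h1 : (G.card : ℝ) * 2 ^ r ≤ 2 ^ N * (G.image Φ).card := by exact_mod_cast hcount
    have h2 : (2 : ℝ) ^ N = Real.exp (N * Real.log 2) := by
      rw [← Real.log_pow, Real.exp_log (by positivity)]
    have h3 : Real.exp (N / 2 ^ n / 160 * Real.log 2) ≤ (2 : ℝ) ^ r := by
      have h4 : (2 : ℝ) ^ r = Real.exp (r * Real.log 2) := by
        rw [← Real.log_pow, Real.exp_log (by positivity)]
      rw [h4]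
      apply Real.exp_le_exp.2
      apply mul_le_mul_of_nonneg_right (Nat.le_ceil _) (Real.log_nonneg (by norm_num))
    have h5 : Real.exp (N * Real.log 2 - N / 2 ^ n / 1000) / 8 ≤ G.card := by
      linarith
    have h6 : Real.exp (N * Real.log 2 - N / 2 ^ n / 1000) / 8 *
        Real.exp (N / 2 ^ n / 160 * Real.log 2) ≤ 2 ^ N * (G.image Φ).card :=
      (mul_le_mul h5 h3 (Real.exp_pos _).le (Nat.cast_nonneg _)).trans h1
    rw [h2] at h6
    have h7 : Real.exp (N * Real.log 2 - N / 2 ^ n / 1000) / 8 *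
        Real.exp (N / 2 ^ n / 160 * Real.log 2) = Real.exp (N * Real.log 2) *
        (Real.exp (N / 2 ^ n / 160 * Real.log 2 - N / 2 ^ n / 1000) / 8) := by
      rw [div_mul_eq_mul_div, ← Real.exp_add, ← mul_div_assoc, ← Real.exp_add]
      congr 2
      ring
    rw [h7] at h6
    have h8 := le_of_mul_le_mul_left h6 (Real.exp_pos _)
    refine le_trans ?_ h8
    rw [le_div_iff₀ (by norm_num)]
    have h9 : Real.exp (N / 2 ^ n / 160 * Real.log 2 - N / 2 ^ n / 1000) =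
        Real.exp (N / 2 ^ n / 500) * Real.exp (N / 2 ^ n / 160 * Real.log 2 - N / 2 ^ n / 1000 -
          N / 2 ^ n / 500) := by
      rw [← Real.exp_add]; congr 1; ring
    rw [h9]
    apply mul_le_mul_of_nonneg_left _ (Real.exp_pos _).le
    have hbig := h.hδN
    have hlog1 := Real.log_two_gt_d9
    set x : ℝ := (N : ℝ) / 2 ^ n with hx
    have h10 : (7 : ℝ) ≤ x / 160 * Real.log 2 - x / 1000 - x / 500 := by nlinarith
    have h11 := Real.add_one_le_exp (x / 160 * Real.log 2 - x / 1000 - x / 500)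
    linarith
  · rw [Finset.mem_image] at hb
    obtain ⟨f, hf, rfl⟩ := hb
    exact hΦ3 f hf

/-- exponentially many flat vectors at every large length -/
theorem exists_many (c : ℝ) (hc : 0 < c) : ∃ κ : ℝ, 0 < κ ∧ ∃ N₀ : ℕ, ∀ N : ℕ, N₀ ≤ N →
    ∃ S : Finset (Fin N → Bool), Real.exp (κ * N) ≤ S.card ∧ ∀ b ∈ S, FlatB c b := by
  classical
  set c' : ℝ := min c 1 with hc'
  have hc'0 : 0 < c' := lt_min hc one_pos
  have hc'1 : c' ≤ 1 := min_le_right _ _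
  have hc'c : c' ≤ c := min_le_left _ _
  obtain ⟨n₀, hn₀⟩ := pow_unbounded_of_one_lt ((10 ^ 7 / c') ^ 8) (one_lt_two)
  set n := n₀ + 1 with hn
  have hnc : (10 ^ 7 / c') ^ 8 ≤ (2 : ℝ) ^ n := by
    refine hn₀.le.trans ?_
    exact pow_le_pow_right₀ (by norm_num) (by omega)
  obtain ⟨N₁, hN₁⟩ := ultraflatB (c' / 16) (by positivity)
  refine ⟨1 / 2 ^ n / 500, by positivity, max N₁ ⌈(4 * 10 ^ 6 * (2 : ℝ) ^ n) ^ 2⌉₊,
    fun N hN => ?_⟩
  obtain ⟨a, ha⟩ := hN₁ N ((le_max_left _ _).trans hN)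
  have hNn : (4 * 10 ^ 6 * (2 : ℝ) ^ n) ^ 2 ≤ N :=
    (Nat.le_ceil _).trans (by exact_mod_cast (le_max_right _ _).trans hN)
  obtain ⟨S, hS1, hS2⟩ := many_of_flat c' hc'0 hc'1 n N (by omega) (num c' hc'0 hc'1 n hnc N hNn) a ha
  refine ⟨S, ?_, fun b hb θ => ?_⟩
  · refine le_trans (le_of_eq ?_) hS1
    congr 1
    ring
  · have h1 := hS2 b hb θ
    have hs : 0 ≤ √(N : ℝ) := Real.sqrt_nonneg _
    constructor
    · refine le_trans ?_ h1.1
      apply mul_le_mul_of_nonneg_right _ hs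
      linarith
    · refine h1.2.trans ?_
      apply mul_le_mul_of_nonneg_right _ hs
      linarith

end Vale.Agent.P110.H628
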