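import Vale.Agent.P110.H628.Code
import Vale.Agent.P110.H880.Merit

/-! # P110: the code of flat sign vectors, in terms of units of the integers -/

namespace Vale.Agent.P110.H628

open Finset Vale.Agent.P110.RT

/-- from Booleans to signs -/
def toU {N : ℕ} (b : Fin N → Bool) : Fin N → ℤˣ := fun k => if b k then 1 else -1

theorem toU_ne {N : ℕ} (a b : Fin N → Bool) (k : Fin N) : toU a k ≠ toU b k ↔ a k ≠ b k := by
  unfold toU
  cases a k <;> cases b k <;> simp <;> decide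

theorem toU_injective {N : ℕ} : Function.Injective (toU (N := N)) := by
  intro a b h
  funext k
  by_contra hne
  exact (toU_ne a b k).2 hne (congrFun h k)

theorem toU_sum {N : ℕ} (b : Fin N → Bool) (θ : ℝ) :
    ∑ k : Fin N, ((toU b k : ℤ) : ℂ) * (e θ) ^ (k : ℕ) = tp b θ := by
  unfold tp
  refine Finset.sum_congr rfl fun k _ => ?_
  rw [fin_e_pow]
  congr 1
  unfold toU
  cases b k <;> simp [sg]

/-- good codes of flat sign vectors -/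
theorem code_units (c : ℝ) (hc : 0 < c) (hc1 : c ≤ 1) : ∃ N₀ : ℕ, ∀ N : ℕ, N₀ ≤ N →
    ∃ C : Finset (Fin N → ℤˣ), Real.exp (c ^ 8 / 10 ^ 60 * N) ≤ C.card ∧
      (∀ a ∈ C, ∀ z : ℂ, ‖z‖ = 1 →
        (1 - c) * √(N : ℝ) ≤ ‖∑ k : Fin N, ((a k : ℤ) : ℂ) * z ^ (k : ℕ)‖ ∧
        ‖∑ k : Fin N, ((a k : ℤ) : ℂ) * z ^ (k : ℕ)‖ ≤ (1 + c) * √(N : ℝ)) ∧
      (∀ a ∈ C, ∀ b ∈ C, a ≠ b → (c ^ 8 / 10 ^ 60) ^ 2 * N ≤ (hammingDist a b : ℝ)) := by
  classical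
  obtain ⟨N₀, h⟩ := exists_code c hc hc1
  refine ⟨N₀, fun N hN => ?_⟩
  obtain ⟨C, hC1, hC2, hC3⟩ := h N hN
  refine ⟨C.image toU, ?_, ?_, ?_⟩
  · rw [Finset.card_image_of_injective _ toU_injective]
    exact hC1
  · intro a ha z hz
    obtain ⟨b, hb, rfl⟩ := Finset.mem_image.1 ha
    obtain ⟨θ, rfl⟩ := fin_exists_e_eq hz
    rw [toU_sum]
    exact hC2 b hb θ
  · intro a ha a' ha' hne
    obtain ⟨b, hb, rfl⟩ := Finset.mem_image.1 ha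
    obtain ⟨b', hb', rfl⟩ := Finset.mem_image.1 ha'
    have h1 := hC3 b hb b' hb' (fun h => hne (by rw [h]))
    refine h1.trans (le_of_eq ?_)
    unfold hammingDist
    congr 2
    ext k
    simp only [mem_filter, mem_univ, true_and]
    exact (toU_ne b b' k).symm

/-- flat vectors have small aperiodic autocorrelations -/
theorem acf_le (c : ℝ) (hc : 0 < c) (hc1 : c ≤ 1) {N : ℕ} (a : Fin N → ℤˣ)
    (h : ∀ z : ℂ, ‖z‖ = 1 → ‖∑ k : Fin N, ((a k : ℤ) : ℂ) * z ^ (k : ℕ)‖ ≤ (1 + c) * √(N : ℝ)) :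
    ∑ k ∈ Ico 1 N, ((acf a k : ℤ) : ℝ) ^ 2 ≤ 15 * c * (N : ℝ) ^ 2 := by
  have h1 := H880.autocorr a (B := (1 + c) * √(N : ℝ)) (by positivity) (fun z hz => by
    rw [H880.eval_lw]; exact h z hz)
  have h2 : ((1 + c) * √(N : ℝ)) ^ 4 = (1 + c) ^ 4 * (N : ℝ) ^ 2 := by
    rw [mul_pow]
    have : √(N : ℝ) ^ 4 = (N : ℝ) ^ 2 := by
      calc √(N : ℝ) ^ 4 = (√(N : ℝ) ^ 2) ^ 2 := by ring
        _ = _ := by rw [Real.sq_sqrt (Nat.cast_nonneg _)]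
    rw [this]
  rw [h2] at h1
  have h3 : (1 + c) ^ 4 - 1 ≤ 15 * c := by
    have h4 : (1 + c) ^ 4 - 1 = c * (4 + 6 * c + 4 * c ^ 2 + c ^ 3) := by ring
    have h5 : c ^ 2 ≤ 1 := pow_le_one₀ hc.le hc1
    have h6 : c ^ 3 ≤ 1 := pow_le_one₀ hc.le hc1
    rw [h4]
    nlinarith
  nlinarith [sq_nonneg (N : ℝ)]

end Vale.Agent.P110.H628
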