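import Vale.Agent.P110.Bdl.B1

/-! # P110: dyadic rounding which keeps the saturated coordinates -/

namespace Vale.Agent.P110.H628

open Finset Vale.Agent.P110.RT

/-- the dyadic rounding step; coordinates which are already `±1` are not changed -/
theorem dyadic_rounding' {κ J : Type*} [Fintype κ] [DecidableEq κ] [Fintype J] [DecidableEq J]
    (v : J → κ → ℝ) (hv : ∀ j k, |v j k| ≤ 1) (hJ : Fintype.card κ ≤ Fintype.card J)
    (D W : ℝ) (hD : 0 ≤ D)
    (hW : W = (2 * D) ^ (1 / 8 : ℝ) * ((Fintype.card J : ℝ) + 1) ^ (3 / 8 : ℝ)) (n : ℕ) :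
    ∀ z : κ → ℤ, (∀ k, |z k| ≤ 2 ^ n) →
      (∑ k, (1 - |(z k : ℝ) / 2 ^ n|) ≤ 2 * D - 4000 * W * (1 - 0.55 ^ n)) →
      ∃ e : κ → ℝ, (∀ k, e k = 1 ∨ e k = -1) ∧ (∀ k, |z k| = 2 ^ n → e k = (z k : ℝ) / 2 ^ n) ∧
        ∀ j, |∑ k, (e k - (z k : ℝ) / 2 ^ n) * v j k| ≤ 2000 * W + 4000 * W * (1 - 0.55 ^ n) := by
  classical
  have hW0 : 0 ≤ W := by rw [hW]; (clear * - hD; positivity)
  have hcardO : (Fintype.card (Option J) : ℝ) = (Fintype.card J : ℝ) + 1 := by
    rw [Fintype.card_option]; push_cast; ring
  induction n with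
  | zero =>
    intro z hz hsum
    simp only [pow_zero, div_one, sub_self, mul_zero, sub_zero, add_zero] at hsum ⊢
    set S : Finset κ := univ.filter (fun k => z k = 0) with hS
    have hScard : (S.card : ℝ) ≤ 2 * D := by
      refine le_trans ?_ hsum
      rw [← nsmul_one, ← Finset.sum_const]
      calc ∑ _k ∈ S, (1 : ℝ) = ∑ k ∈ S, (1 - |(z k : ℝ)|) := by
            refine Finset.sum_congr rfl fun k hk => ?_
            rw [(Finset.mem_filter.1 hk).2]; simp only [Int.cast_zero, abs_zero, sub_zero]
        _ ≤ ∑ k, (1 - |(z k : ℝ)|) := by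
            refine Finset.sum_le_sum_of_subset_of_nonneg (Finset.filter_subset _ _) fun k _ _ => ?_
            have := hz k
            have h2 : |(z k : ℝ)| ≤ 1 := by exact_mod_cast this
            linarith only [h2]
    obtain ⟨χ, h1, h0, hb⟩ := full_colouring (J := Option J)
      (fun o k => o.elim 1 (fun j => v j k)) (fun o k => by cases o <;> simp [hv])
      (by rw [Fintype.card_option]; omega) S.card S rfl
      ((Finset.card_le_univ S).trans (by rw [Fintype.card_option]; omega))
    refine ⟨fun k => z k + χ k, fun k => ?_, fun k hk => ?_, fun j => ?_⟩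
    rotate_left
    · have hk0 : z k ≠ 0 := by rintro h; rw [h] at hk; simp at hk
      have h2 := h0 k (by rw [hS, Finset.mem_filter]; exact fun h => hk0 h.2)
      simp [h2]
    rotate_left
    · by_cases hk : z k = 0
      · have := h1 k (by rw [hS, Finset.mem_filter]; exact ⟨Finset.mem_univ _, hk⟩)
        simpa only [hk, Int.cast_zero, zero_add] using this
      · have h2 := h0 k (by rw [hS, Finset.mem_filter]; exact fun h => hk h.2)
        have h3 := hz k
        rw [pow_zero, abs_le] at h3
        have h4 : z k = 1 ∨ z k = -1 := by omega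
        rcases h4 with h4 | h4 <;> simp [h2, h4]
    · have e1 : ∑ k, ((z k : ℝ) + χ k - (z k : ℝ)) * v j k = ∑ k ∈ S, χ k * v j k := by
        rw [← Finset.sum_subset (Finset.subset_univ S) fun k _ hk => by rw [h0 k hk]; ring]
        exact Finset.sum_congr rfl fun k _ => by ring
      rw [e1]
      have h2 := hb (some j)
      simp only [Option.elim_some] at h2
      refine h2.trans ?_
      rw [hcardO, mul_assoc, hW]
      have h3 : (S.card : ℝ) ^ (1 / 8 : ℝ) ≤ (2 * D) ^ (1 / 8 : ℝ) :=
        Real.rpow_le_rpow (Nat.cast_nonneg _) hScard (by norm_num)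
      have h4 : 0 ≤ ((Fintype.card J : ℝ) + 1) ^ (3 / 8 : ℝ) := by (clear * -; positivity)
      have h5 := mul_le_mul_of_nonneg_right h3 h4
      linarith only [h5]
  | succ n ih =>
    intro z hz hsum
    set S : Finset κ := univ.filter (fun k => Odd (z k)) with hS
    have hp : (0 : ℝ) < 2 ^ (n + 1) := by positivity
    have hzl : ∀ k, |(z k : ℝ) / 2 ^ (n + 1)| ≤ 1 := by
      intro k
      rw [abs_div, abs_of_pos hp, div_le_one hp]
      exact_mod_cast hz k
    have hodd : ∀ k ∈ S, |z k| + 1 ≤ 2 ^ (n + 1) := by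
      intro k hk
      have h1 := (Finset.mem_filter.1 hk).2
      have h2 := hz k
      rcases h2.lt_or_eq with h3 | h3
      · (clear * - h3; omega)
      · exfalso
        have h4 : Odd (|z k|) := by
          rcases abs_choice (z k) with h5 | h5
          · rw [h5]; exact h1
          · rw [h5]; exact h1.neg
        rw [h3] at h4
        have h5 : Even ((2 : ℤ) ^ (n + 1)) := by
          rw [pow_succ]; exact Even.mul_left (by decide) _
        exact (Int.not_even_iff_odd.2 h4) h5
    have hScard : (S.card : ℝ) ≤ 2 ^ (n + 1) * (2 * D) := by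
      have h1 : (S.card : ℝ) * (1 / 2 ^ (n + 1)) ≤ ∑ k, (1 - |(z k : ℝ) / 2 ^ (n + 1)|) := by
        rw [← nsmul_eq_mul, ← Finset.sum_const]
        calc ∑ _k ∈ S, (1 / 2 ^ (n + 1) : ℝ) ≤ ∑ k ∈ S, (1 - |(z k : ℝ) / 2 ^ (n + 1)|) := by
              refine Finset.sum_le_sum fun k hk => ?_
              have h2 := hodd k hk
              have h3 : |(z k : ℝ)| + 1 ≤ 2 ^ (n + 1) := by exact_mod_cast h2
              rw [abs_div, abs_of_pos hp]
              rw [le_sub_iff_add_le, ← add_div, div_le_one hp]
              linarith only [h3]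
          _ ≤ _ := Finset.sum_le_sum_of_subset_of_nonneg (Finset.filter_subset _ _)
              fun k _ _ => by linarith only [hzl k]
      have h2 : 0 ≤ 4000 * W * (1 - 0.55 ^ (n + 1)) := by
        have : (0.55 : ℝ) ^ (n + 1) ≤ 1 := pow_le_one₀ (by norm_num) (by norm_num)
        have h3 : 0 ≤ 1 - (0.55 : ℝ) ^ (n + 1) := by linarith only [this]
        (clear * - hW0 this; positivity)
      have h3 : (S.card : ℝ) * (1 / 2 ^ (n + 1)) ≤ 2 * D := by (clear * - hsum h1 h2; linarith)
      rw [mul_one_div, div_le_iff₀ hp] at h3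
      linarith only [h3]
    set s : κ → ℝ := fun k => if 0 < z k then 1 else -1 with hs
    obtain ⟨χ, h1, h0, hb⟩ := full_colouring (J := Option J)
      (fun o k => o.elim (s k) (fun j => v j k)) (fun o k => by
        cases o with
        | none => simp only [Option.elim_none, hs]; split_ifs <;> simp
        | some j => simpa only [Option.elim_some] using hv j k)
      (by rw [Fintype.card_option]; omega) S.card S rfl
      ((Finset.card_le_univ S).trans (by rw [Fintype.card_option]; omega))
    have hE : 2000 * (S.card : ℝ) ^ (1 / 8 : ℝ) * (Fintype.card (Option J) : ℝ) ^ (3 / 8 : ℝ) ≤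
        2000 * (1.1 ^ (n + 1) * W) := by
      rw [hcardO, mul_assoc, hW]
      have h3 : (S.card : ℝ) ^ (1 / 8 : ℝ) ≤ 1.1 ^ (n + 1) * (2 * D) ^ (1 / 8 : ℝ) := by
        refine (Real.rpow_le_rpow (Nat.cast_nonneg _) hScard (by norm_num)).trans ?_
        rw [Real.mul_rpow (by positivity) (by (clear * - hD; positivity))]
        refine mul_le_mul_of_nonneg_right ?_ (by (clear * - hD; positivity))
        rw [← Real.rpow_natCast, ← Real.rpow_mul (by norm_num), mul_comm, Real.rpow_mul (by norm_num),
          Real.rpow_natCast]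
        refine pow_le_pow_left₀ (by positivity) ?_ _
        have h4 : (2 : ℝ) ≤ 1.1 ^ 8 := by norm_num
        calc (2 : ℝ) ^ (1 / 8 : ℝ) ≤ (1.1 ^ 8) ^ (1 / 8 : ℝ) :=
              Real.rpow_le_rpow (by norm_num) h4 (by norm_num)
          _ = 1.1 := by
              rw [← Real.rpow_natCast, ← Real.rpow_mul (by norm_num)]; norm_num
      have h4 : 0 ≤ ((Fintype.card J : ℝ) + 1) ^ (3 / 8 : ℝ) := by positivity
      have h5 := mul_le_mul_of_nonneg_right h3 h4
      linarith only [h5]
    have hpow : (1.1 : ℝ) ^ (n + 1) = 0.55 ^ (n + 1) * 2 ^ (n + 1) := by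
      rw [← mul_pow]; norm_num
    have hE' : ∀ o : Option J, |∑ k ∈ S, χ k * o.elim (s k) (fun j => v j k)| / 2 ^ (n + 1) ≤
        2000 * (0.55 ^ (n + 1) * W) := by
      intro o
      rw [div_le_iff₀ hp]
      refine (hb o).trans (hE.trans (le_of_eq ?_))
      rw [hpow]; ring
    -- the integer version of the colouring
    have hχz : ∀ k, ∃ y : ℤ, (y : ℝ) = χ k ∧ (k ∈ S → (y = 1 ∨ y = -1)) ∧ (k ∉ S → y = 0) := by
      intro k
      by_cases hk : k ∈ S
      · rcases h1 k hk with h | h
        · exact ⟨1, by rw [h]; norm_num, fun _ => Or.inl rfl, fun h' => absurd hk h'⟩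
        · exact ⟨-1, by rw [h]; norm_num, fun _ => Or.inr rfl, fun h' => absurd hk h'⟩
      · exact ⟨0, by rw [h0 k hk]; norm_num, fun h' => absurd h' hk, fun _ => rfl⟩
    choose y hy1 hy2 hy3 using hχz
    have heven : ∀ k, Even (z k + y k) := by
      intro k
      by_cases hk : k ∈ S
      · have h2 : Odd (z k) := (Finset.mem_filter.1 hk).2
        refine h2.add_odd ?_
        rcases hy2 k hk with h | h <;> rw [h] <;> decide
      · rw [hy3 k hk, add_zero]
        have : ¬ Odd (z k) := fun h => hk (by rw [hS, Finset.mem_filter]; exact ⟨Finset.mem_univ _, h⟩)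
        exact Int.not_odd_iff_even.1 this
    have hhalf : ∀ k, ∃ u : ℤ, z k + y k = u + u := fun k => heven k
    choose u hu using hhalf
    have hval : ∀ k, (u k : ℝ) / 2 ^ n = (z k : ℝ) / 2 ^ (n + 1) + χ k / 2 ^ (n + 1) := by
      intro k
      have h2 : (z k : ℝ) + y k = u k + u k := by exact_mod_cast hu k
      rw [← hy1 k, ← add_div, h2, pow_succ]
      field_simp
      ring
    have hub : ∀ k, |u k| ≤ 2 ^ n := by
      intro k
      have h2 : |u k + u k| ≤ 2 ^ (n + 1) := by
        rw [← hu k]
        by_cases hk : k ∈ S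
        · refine (abs_add_le _ _).trans ?_
          have h3 : |y k| = 1 := by rcases hy2 k hk with h | h <;> rw [h] <;> rfl
          rw [h3]; exact hodd k hk
        · rw [hy3 k hk, add_zero]; exact hz k
      have h3 : |u k + u k| = 2 * |u k| := by
        rw [← two_mul, abs_mul]; rfl
      rw [h3, pow_succ] at h2
      omega
    have habs : ∀ k, |(u k : ℝ) / 2 ^ n| = |(z k : ℝ) / 2 ^ (n + 1)| + χ k * s k / 2 ^ (n + 1) := by
      intro k
      rw [hval k]
      by_cases hk : k ∈ S
      · have h2 : Odd (z k) := (Finset.mem_filter.1 hk).2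
        have hne : z k ≠ 0 := by rintro h; rw [h] at h2; exact absurd h2 (by decide)
        rw [← add_div, abs_div, abs_div, abs_of_pos hp, ← add_div]
        congr 1
        by_cases hpos : 0 < z k
        · have h3 : (1 : ℝ) ≤ z k := by exact_mod_cast hpos
          simp only [hs, hpos, if_true, mul_one]
          rw [abs_of_pos (show (0 : ℝ) < z k by linarith only [h3])]
          refine abs_of_nonneg ?_
          rcases h1 k hk with h | h <;> rw [h] <;> linarith only [h3]
        · have h3 : (z k : ℝ) ≤ -1 := by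
            have : z k ≤ -1 := by omega
            exact_mod_cast this
          simp only [hs, hpos, if_false]
          rw [abs_of_neg (show (z k : ℝ) < 0 by linarith only [h3])]
          rw [abs_of_nonpos (by rcases h1 k hk with h | h <;> rw [h] <;> linarith only [h3])]
          ring
      · rw [h0 k hk]; simp
    have hsum' : ∑ k, (1 - |(u k : ℝ) / 2 ^ n|) ≤ 2 * D - 4000 * W * (1 - 0.55 ^ n) := by
      have e1 : ∑ k, (1 - |(u k : ℝ) / 2 ^ n|) = ∑ k, (1 - |(z k : ℝ) / 2 ^ (n + 1)|)
          - (∑ k ∈ S, χ k * s k) / 2 ^ (n + 1) := by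
        have e2 : (∑ k ∈ S, χ k * s k) = ∑ k, χ k * s k :=
          Finset.sum_subset (Finset.subset_univ S) fun k _ hk => by rw [h0 k hk, zero_mul]
        rw [e2, Finset.sum_div, ← Finset.sum_sub_distrib]
        refine Finset.sum_congr rfl fun k _ => ?_
        rw [habs k]; ring
      rw [e1]
      have h2 := hE' none
      simp only [Option.elim_none] at h2
      have h3 : -((∑ k ∈ S, χ k * s k) / 2 ^ (n + 1)) ≤ 2000 * (0.55 ^ (n + 1) * W) := by
        refine le_trans ?_ h2
        rw [← neg_div]
        exact div_le_div_of_nonneg_right (neg_le_abs _) hp.le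
      have h4 : (0.55 : ℝ) ^ (n + 1) = 0.55 ^ n * 0.55 := pow_succ _ _
      have h5 : (0 : ℝ) ≤ 0.55 ^ n * W := by (clear * - hW0; positivity)
      rw [h4] at h3 hsum
      nlinarith only [hsum, h3, h5]
    obtain ⟨e, he, hes, heb⟩ := ih u hub hsum'
    refine ⟨e, he, fun k hk => ?_, fun j => ?_⟩
    · have hkS : k ∉ S := by
        intro hkS
        have h2 := hodd k hkS
        rw [hk] at h2
        omega
      have h3 : (u k : ℝ) / 2 ^ n = (z k : ℝ) / 2 ^ (n + 1) := by
        rw [hval k, h0 k hkS, zero_div, add_zero]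
      rw [← h3]
      apply hes
      have h4 : z k = u k + u k := by
        have := hu k
        rw [hy3 k hkS, add_zero] at this
        exact this
      have h5 : |u k + u k| = 2 ^ (n + 1) := by rw [← h4]; exact hk
      have h6 : |u k + u k| = 2 * |u k| := by
        rw [← two_mul, abs_mul]; rfl
      rw [h6, pow_succ] at h5
      omega
    have e1 : ∑ k, (e k - (z k : ℝ) / 2 ^ (n + 1)) * v j k
        = ∑ k, (e k - (u k : ℝ) / 2 ^ n) * v j k + (∑ k ∈ S, χ k * v j k) / 2 ^ (n + 1) := by
      have e2 : (∑ k ∈ S, χ k * v j k) = ∑ k, χ k * v j k :=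
        Finset.sum_subset (Finset.subset_univ S) fun k _ hk => by rw [h0 k hk, zero_mul]
      rw [e2, Finset.sum_div, ← Finset.sum_add_distrib]
      refine Finset.sum_congr rfl fun k _ => ?_
      rw [hval k]; ring
    rw [e1]
    refine (abs_add_le _ _).trans ?_
    have h2 := hE' (some j)
    simp only [Option.elim_some] at h2
    have h3 := heb j
    rw [abs_div, abs_of_pos hp]
    have h4 : (0.55 : ℝ) ^ (n + 1) = 0.55 ^ n * 0.55 := pow_succ _ _
    have h5 : (0 : ℝ) ≤ 0.55 ^ n * W := by (clear * - hW0; positivity)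
    rw [h4] at h2 ⊢
    nlinarith only [h2, h3, h5]

end Vale.Agent.P110.H628
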